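import Vale.Agent.P256.Count
import Vale.Agent.P256.Code
import Vale.Agent.P256.Family

/-!
Hyperbolicity cones whose semidefinite lifts all have exponential size.
-/

namespace Vale.Agent.Results.P256.LiftSizeExponential

open Vale.Agent.P256

lemma hasLift_pad {m r : ℕ} {S : Set (Fin m → ℝ)} (h : HasLift r S) (k : ℕ) :
    HasLift (r + k) S := by
  obtain ⟨a, A₀, A, B, hS⟩ := h
  let pad : Matrix (Fin r) (Fin r) ℝ → Matrix (Fin k) (Fin k) ℝ →
      Matrix (Fin (r + k)) (Fin (r + k)) ℝ := fun M D =>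
    (Matrix.fromBlocks M 0 0 D).submatrix finSumFinEquiv.symm finSumFinEquiv.symm
  refine ⟨a, pad A₀ 1, fun i => pad (A i) 0, fun j => pad (B j) 0, fun x => (hS x).trans ?_⟩
  refine exists_congr fun u => ?_
  have e : pad A₀ 1 + ∑ i, x i • pad (A i) 0 + ∑ j, u j • pad (B j) 0 =
      pad (A₀ + ∑ i, x i • A i + ∑ j, u j • B j) 1 := by
    ext p q
    simp only [pad, Matrix.add_apply, Matrix.sum_apply, Matrix.smul_apply, Matrix.submatrix_apply]
    rcases finSumFinEquiv.symm p with p | p <;> rcases finSumFinEquiv.symm q with q | q <;>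
      simp [Matrix.sum_apply]
  rw [e, Matrix.posSemidef_submatrix_equiv]
  letI : Invertible (1 : Matrix (Fin k) (Fin k) ℝ) := invertibleOne
  have := Matrix.PosDef.fromBlocks₂₂ (A₀ + ∑ i, x i • A i + ∑ j, u j • B j) 0
    (D := (1 : Matrix (Fin k) (Fin k) ℝ)) Matrix.PosDef.one
  simp only [Matrix.conjTranspose_zero, Matrix.zero_mul, Matrix.mul_zero, sub_zero] at this
  exact this.symm

lemma cubic_lt_two_pow : ∀ k : ℕ, 50 ≤ k → 93 * (80 * k) ^ 3 < 2 ^ k := by
  intro k hk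
  induction k, hk using Nat.le_induction with
  | base => norm_num
  | succ j hj ih =>
    rw [pow_succ 2 j]
    have : (80 * (j + 1)) ^ 3 ≤ 2 * (80 * j) ^ 3 := by
      nlinarith [Nat.mul_le_mul hj hj, Nat.mul_le_mul (Nat.mul_le_mul hj hj) hj]
    omega

/-- For every large `n` some hyperbolicity cone in `n + 1` variables, of a polynomial of degree `2n`,
has no semidefinite lift of size less than `2 ^ (n / 40)`. -/
theorem result :
    ∃ n₀ : ℕ, ∀ n : ℕ, n₀ ≤ n →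
      ∃ (p : MvPolynomial (Fin (n + 1)) ℝ) (e : Fin (n + 1) → ℝ),
        p.IsHomogeneous (2 * n) ∧ Hyperbolic p e ∧
          ∀ r : ℕ, HasLift r (hypCone p e) → 2 ^ (n / 40) ≤ r := by
  refine ⟨2000, fun n hn => ?_⟩
  classical
  have hn1 : 1 ≤ n := by omega
  obtain ⟨N, hN, u, hu, huu⟩ : ∃ N, N = 2 ^ (n / 8) ∧ ∃ u : Fin N → (Fin n → ℝ),
      (∀ i, ∑ k, u i k ^ 2 = 1) ∧ ∀ i j, i ≠ j → |∑ k, u i k * u j k| ≤ 1 / 2 :=
    ⟨_, rfl, exists_code n (by omega)⟩
  have hN0 : (0 : ℝ) < N := by rw [hN]; positivity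
  set ε : ℝ := 1 / (2 ^ n * (2 * N)) with hε
  have hε0 : 0 < ε := by rw [hε]; positivity
  have hεN : ε * N < (3 / 4 : ℝ) ^ n := by
    have h1 : ε * N = (1 / 2) ^ n / 2 := by rw [hε, _root_.one_div_pow]; field_simp
    have h2 : (1 / 2 : ℝ) ^ n ≤ (3 / 4) ^ n := pow_le_pow_left₀ (by norm_num) (by norm_num) n
    have h3 : (0 : ℝ) < (1 / 2) ^ n := by positivity
    linarith
  by_contra hcon
  push Not at hcon
  obtain ⟨M, hM⟩ : ∃ M, M = 2 ^ (n / 40) := ⟨_, rfl⟩
  rw [← hM] at hcon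
  have hall : ∀ σ : Fin N → Bool, HasLift M (hypCone (famPoly u ε σ) (edir n)) := by
    intro σ
    obtain ⟨r, hr, hlt⟩ := hcon (famPoly u ε σ) (edir n) (famPoly_homogeneous u ε σ)
      (famPoly_hyperbolic hn1 hu hε0.le hεN σ)
    have := hasLift_pad hr (M - r)
    rwa [Nat.add_sub_cancel' hlt.le] at this
  obtain ⟨D, hD⟩ : ∃ D, D = (2 * n + 1) * (n + 1) ^ (2 * n) * 2 ^ n * N * 32 := ⟨_, rfl⟩
  set θ : ℝ := 1 / (D : ℝ) with hθ
  have hDpos : (0 : ℝ) < D := by
    have hNpos : 0 < N := by rw [hN]; positivity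
    have : 0 < D := by rw [hD]; positivity
    exact_mod_cast this
  have hθ0 : 0 < θ := by rw [hθ]; positivity
  have hθ4 : θ < 1 / 4 := by
    rw [hθ]
    apply one_div_lt_one_div_of_lt (by norm_num)
    have h1 : 1 ≤ (2 * n + 1) * (n + 1) ^ (2 * n) * 2 ^ n * N := by
      have hNpos : 0 < N := by rw [hN]; positivity
      exact Nat.one_le_iff_ne_zero.mpr (by positivity)
    have : 4 < D := by rw [hD]; omega
    exact_mod_cast this
  have h2N : 2 * (N : ℝ) ≤ 4 ^ n := by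
    have : 2 * N ≤ 4 ^ n := by
      rw [hN, show (4 : ℕ) = 2 ^ 2 by norm_num, ← pow_mul, ← pow_succ']
      exact Nat.pow_le_pow_right (by norm_num) (by omega)
    exact_mod_cast this
  have hcode := pert_code hu huu h2N
  have hcount := lift_count (fun σ : Fin N → Bool => hypCone (famPoly u ε σ) (edir n)) hall (edir n)
    (δ := 1 / ((n : ℝ) + 2) ^ 2) (R := (n : ℝ) + 1) (θ := θ) (by positivity)
    (by rw [div_le_one (by positivity)]; nlinarith [Nat.cast_nonneg (α := ℝ) n]) (by linarith [Nat.cast_nonneg (α := ℝ) n])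
    hθ0 (by linarith) (fun σ x hx => ball_mem hn1 hu hε0.le hεN σ x hx)
    (testPoint u)
    (by
      intro i k
      refine Fin.cases ?_ (fun j => ?_) k
      · simp only [testPoint, edir, Fin.cons_zero, Pi.single_eq_same, abs_le]
        have : (1 : ℝ) ≤ n := by exact_mod_cast hn1
        constructor <;> linarith
      · simp only [testPoint, edir, Fin.cons_succ, Pi.single_eq_of_ne (Fin.succ_ne_zero j), sub_zero]
        have h := Finset.single_le_sum (f := fun k => u i k ^ 2) (fun k _ => sq_nonneg _)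
          (Finset.mem_univ j)
        rw [hu i] at h
        have h1 : |u i j| ≤ 1 := abs_le_one_iff_mul_self_le_one.mpr (by rw [← sq]; exact h)
        linarith [Nat.cast_nonneg (α := ℝ) n])
    (fun σ i h => testPoint_mem hu hε0 σ i (by linarith [(hcode σ i).2 h]))
    (fun σ i h => testPoint_notMem hn1 hu hε0 hεN hθ0 hθ4 σ i (by
      have h1 := mul_le_mul_of_nonneg_left ((hcode σ i).1 h) hε0.le
      refine lt_of_lt_of_le ?_ h1
      have e1 : 2 * θ * (2 * n + 1) * ((n : ℝ) + 1) ^ (2 * n) = 1 / (16 * (2 ^ n * N)) := by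
        rw [hθ, hD]; push_cast; field_simp; ring
      have e2 : ε * (1 / 2) = 1 / (4 * (2 ^ n * N)) := by rw [hε]; field_simp; ring
      rw [e1, e2]
      exact one_div_lt_one_div_of_lt (by positivity)
        (by nlinarith [mul_pos (pow_pos (show (0 : ℝ) < 2 by norm_num) n) hN0])))
    (6 * (3 * M + 1) * (M ^ 4 + 1) * (n + 2) * (n + 1) * (n + 2) ^ 4 * D + 1)
    (le_of_eq (by rw [hθ]; push_cast; field_simp; ring))
  have hMn : M ≤ 2 ^ n := hM ▸ Nat.pow_le_pow_right (by norm_num) (Nat.div_le_self _ _)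
  have hNn : N ≤ 2 ^ n := hN ▸ Nat.pow_le_pow_right (by norm_num) (Nat.div_le_self _ _)
  have hn2 : n + 2 ≤ 2 ^ n := by
    have : ∀ k, 2 ≤ k → k + 2 ≤ 2 ^ k := by
      intro k hk
      induction k, hk using Nat.le_induction with
      | base => norm_num
      | succ j _ ih => rw [pow_succ]; omega
    exact this n (by omega)
  have h2n : 1 ≤ 2 ^ n := Nat.one_le_two_pow
  have hDle : D ≤ 2 ^ (n + 1) * (2 ^ n) ^ (2 * n) * 2 ^ n * 2 ^ n * 2 ^ 5 := by
    rw [hD]
    exact Nat.mul_le_mul (Nat.mul_le_mul (Nat.mul_le_mul (Nat.mul_le_mul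
      (by rw [pow_succ]; omega) (Nat.pow_le_pow_left (by omega) _)) le_rfl) hNn) (by norm_num)
  have hG : 2 * (6 * (3 * M + 1) * (M ^ 4 + 1) * (n + 2) * (n + 1) * (n + 2) ^ 4 * D + 1) + 1 ≤
      2 ^ (31 * n ^ 2) := by
    have hM4 : M ^ 4 + 1 ≤ 2 ^ (4 * n + 1) := by
      have h4 : M ^ 4 ≤ 2 ^ (4 * n) :=
        (Nat.pow_le_pow_left hMn 4).trans_eq (by rw [← pow_mul, mul_comm])
      have h5 : 1 ≤ 2 ^ (4 * n) := Nat.one_le_two_pow
      have h6 : 2 ^ (4 * n + 1) = 2 ^ (4 * n) * 2 := pow_succ 2 (4 * n)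
      omega
    have h0 : 6 * (3 * M + 1) * (M ^ 4 + 1) * (n + 2) * (n + 1) * (n + 2) ^ 4 * D ≤
        2 ^ 3 * 2 ^ (n + 2) * 2 ^ (4 * n + 1) * 2 ^ n * 2 ^ n * (2 ^ n) ^ 4 *
          (2 ^ (n + 1) * (2 ^ n) ^ (2 * n) * 2 ^ n * 2 ^ n * 2 ^ 5) :=
      Nat.mul_le_mul (Nat.mul_le_mul (Nat.mul_le_mul (Nat.mul_le_mul (Nat.mul_le_mul
        (Nat.mul_le_mul (by norm_num) (by rw [pow_add]; omega)) hM4) hn2) (by omega))
        (Nat.pow_le_pow_left hn2 4)) hDle
    simp only [← pow_mul, ← pow_add] at h0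
    have h1 := Nat.pow_le_pow_right (show 0 < 2 by norm_num)
      (show 3 + (n + 2) + (4 * n + 1) + n + n + n * 4 + (n + 1 + n * (2 * n) + n + n + 5) + 2 ≤
        31 * n ^ 2 by nlinarith)
    rw [pow_add 2 (3 + (n + 2) + (4 * n + 1) + n + n + n * 4 +
      (n + 1 + n * (2 * n) + n + n + 5)) 2] at h1
    have h2 := Nat.pow_le_pow_right (show 0 < 2 by norm_num)
      (show 1 ≤ 3 + (n + 2) + (4 * n + 1) + n + n + n * 4 + (n + 1 + n * (2 * n) + n + n + 5) by omega)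
    rw [pow_one] at h2
    omega
  have h1 := hcount.trans (Nat.pow_le_pow_left hG _)
  rw [← pow_mul, Nat.pow_le_pow_iff_right (by norm_num)] at h1
  have h2 : M ^ 4 + (n + 1) * M ^ 2 ≤ (n + 2) * M ^ 4 := by
    have := Nat.pow_le_pow_right (show 0 < M by rw [hM]; positivity) (show 2 ≤ 4 by norm_num)
    nlinarith
  have h3 : N ≤ 93 * n ^ 3 * M ^ 4 :=
    calc N ≤ 31 * n ^ 2 * (M ^ 4 + (n + 1) * M ^ 2) := h1
      _ ≤ 31 * n ^ 2 * ((n + 2) * M ^ 4) := Nat.mul_le_mul_left _ h2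
      _ ≤ 31 * n ^ 2 * (3 * n * M ^ 4) :=
          Nat.mul_le_mul_left _ (Nat.mul_le_mul_right _ (by omega))
      _ = 93 * n ^ 3 * M ^ 4 := by ring
  have h4 : 93 * n ^ 3 < 2 ^ (n / 40) :=
    lt_of_le_of_lt (Nat.mul_le_mul_left 93 (Nat.pow_le_pow_left (by omega) 3))
      (cubic_lt_two_pow (n / 40) (by omega))
  have h5 : M * M ^ 4 ≤ N := by
    rw [hM, hN, ← pow_mul, ← pow_add]
    exact Nat.pow_le_pow_right (by norm_num) (by omega)
  rw [← hM] at h4
  have h6 : 93 * n ^ 3 * M ^ 4 < M * M ^ 4 :=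
    Nat.mul_lt_mul_of_pos_right h4 (by rw [hM]; positivity)
  omega

end Vale.Agent.Results.P256.LiftSizeExponential
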