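import Vale.Agent.P256.Shadow.Main

/-!
Hyperbolicity cones whose singular boundary rays are ordinary singular points, of any multiplicity,
are spectrahedral shadows.
-/

namespace Vale.Agent.Results.P256.ShadowOrdinaryPoints

open Vale.Agent.P256 MvPolynomial

/-- If every nonzero boundary point `x` of a pointed hyperbolicity cone is a smooth point of `p`, or
the lowest nonzero homogeneous part `q` of `p (x + ·)` has degree at least two and no singular point
on the boundary of its hyperbolicity cone outside the line through `x`, and no boundary segment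
joins two independent singular points, then the cone is a spectrahedral shadow. -/
theorem result (n d : ℕ) (p : MvPolynomial (Fin n) ℝ) (e : Fin n → ℝ)
    (hhom : p.IsHomogeneous d) (hhyp : Hyperbolic p e)
    (hpts : ∀ x ∈ frontier (hypCone p e), x ≠ 0 → (∃ i, eval x (pderiv i p) ≠ 0) ∨
      ∃ (m : ℕ) (q : MvPolynomial (Fin n) ℝ), 2 ≤ m ∧
        q = homogeneousComponent m (aeval (fun i => C (x i) + X i) p) ∧ q ≠ 0 ∧
        (∀ j < m, homogeneousComponent j (aeval (fun i => C (x i) + X i) p) = 0) ∧
        ∀ u ∈ frontier (hypCone q e), (¬ ∃ c : ℝ, u = c • x) → ∃ i, eval u (pderiv i q) ≠ 0)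
    (hpointed : ∀ x ∈ hypCone p e, -x ∈ hypCone p e → x = 0)
    (hseg : ∀ x ∈ frontier (hypCone p e), ∀ y ∈ frontier (hypCone p e),
      (∀ i, eval x (pderiv i p) = 0) → (∀ i, eval y (pderiv i p) = 0) →
      (1 / 2 : ℝ) • (x + y) ∈ frontier (hypCone p e) → ¬ LinearIndependent ℝ ![x, y]) :
    Shadow.IsShadow (hypCone p e) :=
  Shadow.shadow_of_ordinary_points hhom hhyp (fun x hx hx0 => (hpts x hx hx0).imp_right
    fun ⟨m, q, hm, hq, hq0, hlow, hsm⟩ => by
      subst hq
      exact ⟨m, hm, hlow, hq0, hsm⟩) hpointed hseg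

end Vale.Agent.Results.P256.ShadowOrdinaryPoints
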